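import Vale.Agent.P244.Geom
import Vale.Agent.P244.Top
import Vale.Agent.P244.A.Main

namespace Vale.Agent.P244

theorem counterexample : Counterexample := by
  obtain ⟨κ, τ₀, hκ, h0, h1, hd, hr⟩ := apriori
  obtain ⟨A, β, B, hs, hR, hdeg⟩ := top hκ h0 h1 hd hr
  exact geom h0 hs hR hdeg

end Vale.Agent.P244
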