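import Vale.Agent.P255.Defs

/-!
Ricci flow on a manifold in the classical chart-by-chart form, in short definitions.
-/

namespace Vale.Agent.P244.St

open scoped ContDiff Manifold
open Vale.Agent.P255

section

variable {E M : Type*} [NormedAddCommGroup E] [NormedSpace ℝ E] [TopologicalSpace M]
  [ChartedSpace E M]

/-- The value `g(v, w)` at the point `y` of the chart `e`. -/
noncomputable def coef (g : Metric E M) (e : OpenPartialHomeomorph M E) (y v w : E) : ℝ :=
  g.g e y v w

/-- Raising an index: the vector `u` with `g(u, ·) = φ` at the point `y` of the chart `e`. -/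
noncomputable def raise (g : Metric E M) (e : OpenPartialHomeomorph M E) (y : E)
    (φ : E →L[ℝ] ℝ) : E :=
  (g.g e y).inverse φ

/-- The coefficients of `g t` are jointly smooth on `[0, T) × (chart target)` in every chart. -/
def JointSmooth (g : ℝ → Metric E M) (T : ℝ) : Prop :=
  ∀ e ∈ atlas E M, ContDiffOn ℝ ∞ (fun p : ℝ × E => (g p.1).g e p.2) (Set.Ico 0 T ×ˢ e.target)

/-- `g' t = g t` for `0 ≤ t < T`: same coefficients in every chart. -/
def AgreeOn (g' g : ℝ → Metric E M) (T : ℝ) : Prop :=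
  ∀ t ∈ Set.Ico 0 T, ∀ e ∈ atlas E M, ∀ y ∈ e.target, (g' t).g e y = (g t).g e y

end

/-- The model space. -/
abbrev Euc (n : ℕ) := EuclideanSpace ℝ (Fin n)

section

variable {n : ℕ} {M : Type} [TopologicalSpace M] [ChartedSpace (Euc n) M]

/-- The Ricci tensor in a chart: `Ric(v, w)` is the trace of `u ↦ R(u, v) w`. -/
noncomputable def ric (g : Metric (Euc n) M) (e : OpenPartialHomeomorph M (Euc n))
    (y v w : Euc n) : ℝ :=
  ∑ i, riem (g.g e) y (EuclideanSpace.single i 1) v w i

/-- The scalar curvature in a chart: `g^{ij} Ric_{ij}`. -/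
noncomputable def scal (g : Metric (Euc n) M) (e : OpenPartialHomeomorph M (Euc n))
    (y : Euc n) : ℝ :=
  ∑ i, ric g e y (EuclideanSpace.single i 1) (raise g e y (EuclideanSpace.proj i))

/-- `∂_t g = -2 Ric` on `[0, T)` in every chart. -/
def FlowEq (g : ℝ → Metric (Euc n) M) (T : ℝ) : Prop :=
  ∀ e ∈ atlas (Euc n) M, ∀ y ∈ e.target, ∀ t ∈ Set.Ico 0 T, ∀ v w,
    HasDerivWithinAt (fun s => coef (g s) e y v w) (-2 * ric (g t) e y v w) (Set.Ico 0 T) t

/-- `g t`, `0 ≤ t < T`, is a smooth Ricci flow. -/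
def RicciFlow (g : ℝ → Metric (Euc n) M) (T : ℝ) : Prop :=
  JointSmooth g T ∧ FlowEq g T

/-- The scalar curvature is bounded on `M × [0, T)`. -/
def BddScal (g : ℝ → Metric (Euc n) M) (T : ℝ) : Prop :=
  ∃ C, ∀ t ∈ Set.Ico 0 T, ∀ e ∈ atlas (Euc n) M, ∀ y ∈ e.target, |scal (g t) e y| ≤ C

/-- The flow extends past `T` as a smooth Ricci flow on the same manifold. -/
def Extends (g : ℝ → Metric (Euc n) M) (T : ℝ) : Prop :=
  ∃ ε > 0, ∃ g' : ℝ → Metric (Euc n) M, RicciFlow g' (T + ε) ∧ AgreeOn g' g T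

end

end Vale.Agent.P244.St
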