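import Vale.Agent.P244.Final
import Vale.Agent.P244.Stmt2

/-! The counterexample in the short definitions. -/

namespace Vale.Agent.P244.St

open scoped ContDiff Manifold
open Vale.Agent.P255

section

variable {n : ℕ} {M : Type} [TopologicalSpace M] [ChartedSpace (Euc n) M]

theorem ricciFlow_iff (g : ℝ → Metric (Euc n) M) (T : ℝ) :
    RicciFlow g T ↔ Vale.Agent.P244.IsRicciFlow g T :=
  ⟨fun h => ⟨h.1, h.2⟩, fun h => ⟨h.1, h.2⟩⟩

theorem bddScal_iff (g : ℝ → Metric (Euc n) M) (T : ℝ) :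
    BddScal g T ↔ Vale.Agent.P244.BddScal g T := Iff.rfl

theorem extends_iff (g : ℝ → Metric (Euc n) M) (T : ℝ) :
    Extends g T ↔ Vale.Agent.P244.Extends g T :=
  ⟨fun ⟨ε, hε, g', h, h'⟩ => ⟨ε, hε, g', (ricciFlow_iff _ _).1 h, h'⟩,
    fun ⟨ε, hε, g', h, h'⟩ => ⟨ε, hε, g', (ricciFlow_iff _ _).2 h, h'⟩⟩

end

theorem final :
    ∃ (n : ℕ) (M : Type) (_ : TopologicalSpace M) (_ : ChartedSpace (Euc n) M),
      4 ≤ n ∧ IsManifold (𝓡 n) ∞ M ∧ CompactSpace M ∧ T2Space M ∧ ConnectedSpace M ∧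
      ∃ T > 0, ∃ g : ℝ → Metric (Euc n) M, RicciFlow g T ∧ BddScal g T ∧ ¬ Extends g T := by
  obtain ⟨n, M, i1, i2, h1, h2, h3, h4, h5, T, hT, g, hg, hb, he⟩ := Vale.Agent.P244.counterexample
  exact ⟨n, M, i1, i2, h1, h2, h3, h4, h5, T, hT, g, (ricciFlow_iff _ _).2 hg,
    (bddScal_iff _ _).2 hb, fun h => he ((extends_iff _ _).1 h)⟩

end Vale.Agent.P244.St
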