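import Vale.Agent.P244.G.Main

/-!
BLOCK G (notes/P244.md, Part G): from a solution of the reduced system to the counterexample.
-/

namespace Vale.Agent.P244

open Set

theorem geom {T : ℝ} (hT : 0 < T) {A β B : Fn} (h : IsSol (Ico 0 T) A β B)
    (hR : ∃ C, ∀ t ∈ Ico 0 T, ∀ y ∈ Icc (0 : ℝ) 1, |Rf A β t y| ≤ C)
    (hd : ∀ ε > 0, ∃ t ∈ Ico 0 T, Real.exp (β t 0) < ε) : Counterexample :=
  G.geom_main hT h hR hd

end Vale.Agent.P244
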