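import Vale.Agent.P255.Defs

/-!
Ricci flow on a manifold in the classical chart-by-chart form.
-/

namespace Vale.Agent.P244

open scoped ContDiff Manifold
open Vale.Agent.P255

/-- The model space. -/
abbrev Euc (n : ℕ) := EuclideanSpace ℝ (Fin n)

/-- The Ricci tensor in a chart: `Ric(v, w)` is the trace of `u ↦ R(u, v) w`. -/
noncomputable def ric {n : ℕ} (G : Euc n → Euc n →L[ℝ] Euc n →L[ℝ] ℝ) (y v w : Euc n) : ℝ :=
  ∑ i, riem G y (EuclideanSpace.single i 1) v w i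

/-- The scalar curvature in a chart: `g^{ij} Ric_{ij}`. -/
noncomputable def scal {n : ℕ} (G : Euc n → Euc n →L[ℝ] Euc n →L[ℝ] ℝ) (y : Euc n) : ℝ :=
  ∑ i, ric G y (EuclideanSpace.single i 1) ((G y).inverse (EuclideanSpace.proj i))

section

variable {n : ℕ} {M : Type} [TopologicalSpace M] [ChartedSpace (Euc n) M]

/-- `g t`, `0 ≤ t < T`, is a smooth Ricci flow: jointly smooth up to `t = 0`, and
`∂_t g = -2 Ric` in every chart. -/
structure IsRicciFlow (g : ℝ → Metric (Euc n) M) (T : ℝ) : Prop where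
  smooth : ∀ e ∈ atlas (Euc n) M,
    ContDiffOn ℝ ∞ (fun p : ℝ × Euc n => (g p.1).g e p.2) (Set.Ico 0 T ×ˢ e.target)
  flow : ∀ e ∈ atlas (Euc n) M, ∀ y ∈ e.target, ∀ t ∈ Set.Ico 0 T, ∀ v w,
    HasDerivWithinAt (fun s => (g s).g e y v w) (-2 * ric ((g t).g e) y v w) (Set.Ico 0 T) t

/-- The scalar curvature is bounded on `M × [0, T)`. -/
def BddScal (g : ℝ → Metric (Euc n) M) (T : ℝ) : Prop :=
  ∃ C, ∀ t ∈ Set.Ico 0 T, ∀ e ∈ atlas (Euc n) M, ∀ y ∈ e.target, |scal ((g t).g e) y| ≤ C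

/-- The flow extends past `T` as a smooth Ricci flow on the same manifold. -/
def Extends (g : ℝ → Metric (Euc n) M) (T : ℝ) : Prop :=
  ∃ ε > 0, ∃ g' : ℝ → Metric (Euc n) M, IsRicciFlow g' (T + ε) ∧
    ∀ t ∈ Set.Ico 0 T, ∀ e ∈ atlas (Euc n) M, ∀ y ∈ e.target, (g' t).g e y = (g t).g e y

end

/-- A closed manifold of dimension at least four with a Ricci flow on a finite time interval whose
scalar curvature is bounded and which does not extend. -/
def Counterexample : Prop :=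
  ∃ (n : ℕ) (M : Type) (_ : TopologicalSpace M) (_ : ChartedSpace (Euc n) M),
    4 ≤ n ∧ IsManifold (𝓡 n) ∞ M ∧ CompactSpace M ∧ T2Space M ∧ ConnectedSpace M ∧
    ∃ T > 0, ∃ g : ℝ → Metric (Euc n) M, IsRicciFlow g T ∧ BddScal g T ∧ ¬ Extends g T

end Vale.Agent.P244
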